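import Crest.Agent.N250.HJ.Defs

/-! # Row 250, end action: derivatives of the boundary action -/

namespace Crest.Agent.N250.HJ

open Finset

lemma sqrt_sq (z : ℂ) : (z ^ (1 / 2 : ℂ)) ^ 2 = z := by
  rw [one_div]; exact Complex.cpow_ofNat_inv_pow z 2

lemma sqrt_re (z : ℂ) : (z ^ (1 / 2 : ℂ)).re = √((‖z‖ + z.re) / 2) := by
  rw [one_div]; exact Complex.cpow_inv_two_re z

lemma sqrt_re_nonneg (z : ℂ) : 0 ≤ (z ^ (1 / 2 : ℂ)).re := by
  rw [sqrt_re]; positivity

lemma sqrt_eq {z ρ : ℂ} (h : ρ ^ 2 = z) (hρ : 0 < ρ.re) : z ^ (1 / 2 : ℂ) = ρ := by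
  have h1 := sqrt_sq z
  have h2 := sqrt_re_nonneg z
  rcases sq_eq_sq_iff_eq_or_eq_neg.1 (h1.trans h.symm) with h3 | h3
  · exact h3
  · rw [h3, Complex.neg_re] at h2; linarith

lemma sqrt_sub_one (z : ℂ) : ‖(1 - z) ^ (1 / 2 : ℂ) - 1‖ ≤ ‖z‖ := by
  set s := (1 - z) ^ (1 / 2 : ℂ)
  have h1 : s ^ 2 = 1 - z := sqrt_sq _
  have h2 : 0 ≤ s.re := sqrt_re_nonneg _
  have h3 : 1 ≤ ‖s + 1‖ := by
    have := Complex.re_le_norm (s + 1)
    rw [Complex.add_re, Complex.one_re] at this; linarith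
  have h4 : (s - 1) * (s + 1) = -z := by linear_combination h1
  have h5 : ‖s - 1‖ * ‖s + 1‖ = ‖z‖ := by rw [← norm_mul, h4, norm_neg]
  nlinarith [norm_nonneg (s - 1)]

lemma rr_sq (V : ℂ) : rr V ^ 2 = 2 * V := sqrt_sq _

lemma rr_ne {V : ℂ} (h : V ≠ 0) : rr V ≠ 0 := by
  intro h0
  have := rr_sq V
  rw [h0] at this
  apply h
  linear_combination -this / 2

lemma norm_rr (V : ℂ) : ‖rr V‖ = √(2 * ‖V‖) := by
  have h := congrArg norm (rr_sq V)
  rw [norm_pow, norm_mul, Complex.norm_ofNat] at h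
  rw [← h, Real.sqrt_sq (norm_nonneg _)]

lemma norm_rr_le {V : ℂ} (h : 0 < V.re) : ‖rr V‖ ≤ 2 * (rr V).re := by
  rw [norm_rr, rr, sqrt_re]
  have h1 : (2 : ℝ) * √((‖2 * V‖ + (2 * V).re) / 2) = √(4 * ((‖2 * V‖ + (2 * V).re) / 2)) := by
    rw [Real.sqrt_mul (by norm_num), show (4 : ℝ) = 2 ^ 2 by norm_num, Real.sqrt_sq (by norm_num)]
  rw [h1]
  apply Real.sqrt_le_sqrt
  have : (2 * V).re = 2 * V.re := by simp
  rw [this, norm_mul, Complex.norm_ofNat]
  nlinarith [norm_nonneg V]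

lemma hasDerivAt_rr {V : ℂ} (h : 0 < V.re) : HasDerivAt rr (1 / rr V) V := by
  have hV : V ≠ 0 := by rintro rfl; simp at h
  have hs : 2 * V ∈ Complex.slitPlane := Or.inl (by simpa using h)
  have h1 := ((hasDerivAt_id V).const_mul 2).cpow_const (c := (1 / 2 : ℂ)) hs
  refine h1.congr_deriv ?_
  have h2 : (2 * V) ^ ((1 / 2 : ℂ) - 1) = rr V / (2 * V) := by
    rw [Complex.cpow_sub _ _ (by simpa using hV), Complex.cpow_one]; rfl
  simp only [id]
  rw [h2, ← rr_sq V]
  have := rr_ne hV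
  field_simp

/-- derivative of `e_N` -/
noncomputable def dN (N : ℕ) (w : ℂ) : ℂ := ∑ k ∈ range N, (a (k + 1) : ℂ) * (((k + 1 : ℕ) : ℂ) * w ^ k)

lemma hasDerivAt_eN (N : ℕ) (w : ℂ) : HasDerivAt (eN N) (dN N w) w := by
  unfold eN dN
  refine HasDerivAt.fun_sum fun k _ => ?_
  simpa using (hasDerivAt_pow (k + 1) w).const_mul (a (k + 1) : ℂ)

lemma cN_eq (N : ℕ) (w : ℂ) : cN N w = 1 - eN N w + 2 * w * dN N w := by
  unfold cN eN dN
  rw [sum_range_succ', mul_sum, sub_add, ← sum_sub_distrib]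
  simp only [c_zero, pow_zero]
  have : ∑ k ∈ range N, (c (k + 1) : ℂ) * w ^ (k + 1) = -∑ k ∈ range N, ((a (k + 1) : ℂ) *
      w ^ (k + 1) - 2 * w * ((a (k + 1) : ℂ) * (((k + 1 : ℕ) : ℂ) * w ^ k))) := by
    rw [← sum_neg_distrib]
    refine sum_congr rfl fun k _ => ?_
    simp only [c]; push_cast; ring
  rw [this]; push_cast; ring

lemma differentiable_eN (N : ℕ) : Differentiable ℂ (eN N) := fun w =>
  (hasDerivAt_eN N w).differentiableAt

lemma differentiable_cN (N : ℕ) : Differentiable ℂ (cN N) := by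
  unfold cN; fun_prop

lemma hasDerivAt_S_X (N : ℕ) {X V : ℂ} (hX : X ≠ 0) (hV : V ≠ 0) :
    HasDerivAt (fun X => S N X V) (EE X V * rr V * nu N X V) X := by
  have hE : HasDerivAt (fun X => EE X V) (EE X V * (-X / 2)) X := by
    unfold EE
    refine HasDerivAt.cexp ?_
    have := (((hasDerivAt_pow 2 X).neg).div_const 4).sub_const (V / 2)
    refine this.congr_deriv ?_
    push_cast; ring
  have hw : HasDerivAt (fun X => ww X V) (-2 * ww X V / X) X := by
    unfold ww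
    have := (hasDerivAt_const X (1 : ℂ)).div ((hasDerivAt_pow 2 X).const_mul (2 * V))
      (by simp [hX, hV])
    refine this.congr_deriv ?_
    push_cast; field_simp; ring
  have he := (hasDerivAt_eN N (ww X V)).comp X hw
  have hy : HasDerivAt (fun X : ℂ => V / X ^ 2) (-2 * V / X ^ 3) X := by
    have := (hasDerivAt_const X V).div (hasDerivAt_pow 2 X) (by positivity)
    refine this.congr_deriv ?_
    push_cast; field_simp; ring
  have h1 := ((((hE.const_mul (-2)).mul_const (rr V)).div (hasDerivAt_id X) hX).mul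
    ((he.const_sub 1).sub hy))
  refine h1.congr_deriv ?_
  simp only [nu, cN_eq, Function.comp, id, Pi.sub_apply, Pi.div_apply]
  field_simp
  ring

lemma hasDerivAt_S_V (N : ℕ) {X V : ℂ} (hX : X ≠ 0) (hV : 0 < V.re) :
    HasDerivAt (fun V => S N X V) (-2 * EE X V * tau N X V / (X * rr V)) V := by
  have hV0 : V ≠ 0 := by rintro rfl; simp at hV
  have hE : HasDerivAt (fun V => EE X V) (EE X V * (-1 / 2)) V := by
    unfold EE
    refine HasDerivAt.cexp ?_
    have := ((hasDerivAt_id V).div_const 2).const_sub (-X ^ 2 / 4)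
    refine this.congr_deriv ?_
    ring
  have hw : HasDerivAt (fun V => ww X V) (-ww X V / V) V := by
    unfold ww
    have := (hasDerivAt_const V (1 : ℂ)).div (((hasDerivAt_id V).const_mul 2).mul_const (X ^ 2))
      (by simp [hX, hV0])
    refine this.congr_deriv ?_
    simp only [id]; field_simp; ring
  have he := (hasDerivAt_eN N (ww X V)).comp V hw
  have hy : HasDerivAt (fun V : ℂ => V / X ^ 2) (1 / X ^ 2) V := (hasDerivAt_id V).div_const _
  have h1 := ((((hE.const_mul (-2)).mul (hasDerivAt_rr hV)).div_const X).mul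
    ((he.const_sub 1).sub hy))
  refine h1.congr_deriv ?_
  have hr := rr_ne hV0
  have hr2 := rr_sq V
  simp only [tau, cN_eq, Function.comp, Pi.sub_apply, Pi.mul_apply]
  generalize rr V = r at hr hr2
  have hVr : V = r ^ 2 / 2 := by linear_combination -hr2 / 2
  generalize eN N (ww X V) = e
  generalize dN N (ww X V) = d
  generalize ww X V = w
  generalize EE X V = E
  subst hVr
  field_simp
  ring

lemma differentiableAt_ww {X V : ℂ} (hX : X ≠ 0) (hV : V ≠ 0) :
    DifferentiableAt ℂ (fun p : ℂ × ℂ => ww p.1 p.2) (X, V) := by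
  unfold ww
  have h : DifferentiableAt ℂ (fun p : ℂ × ℂ => 2 * p.2 * p.1 ^ 2) (X, V) := by fun_prop
  simp only [one_div]
  exact h.inv (by simp [hX, hV])

lemma differentiableAt_S (N : ℕ) {X V : ℂ} (hX : X ≠ 0) (hV : 0 < V.re) :
    DifferentiableAt ℂ (fun p : ℂ × ℂ => S N p.1 p.2) (X, V) := by
  have hV0 : V ≠ 0 := by rintro rfl; simp at hV
  have h1 : DifferentiableAt ℂ (fun p : ℂ × ℂ => eN N (ww p.1 p.2)) (X, V) :=
    (differentiable_eN N _).comp _ (differentiableAt_ww hX hV0)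
  have h2 : DifferentiableAt ℂ (fun p : ℂ × ℂ => rr p.2) (X, V) :=
    DifferentiableAt.comp (g := rr) (X, V) (hasDerivAt_rr hV).differentiableAt
      differentiableAt_snd
  have h3 : DifferentiableAt ℂ (fun p : ℂ × ℂ => EE p.1 p.2) (X, V) := by unfold EE; fun_prop
  have h4 : DifferentiableAt ℂ (fun p : ℂ × ℂ => p.1 ^ 2) (X, V) := by fun_prop
  have h5 : DifferentiableAt ℂ (fun p : ℂ × ℂ => (p.1 ^ 2)⁻¹) (X, V) := h4.inv (by simp [hX])
  have h6 : DifferentiableAt ℂ (fun p : ℂ × ℂ => (p.1)⁻¹) (X, V) :=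
    differentiableAt_fst.inv (by simp [hX])
  unfold S
  simp only [div_eq_mul_inv]
  exact (((h3.const_mul _).mul h2).mul h6).mul
    ((h1.const_sub _).sub (differentiableAt_snd.mul h5))

/-- total derivative of the boundary action -/
theorem hasFDerivAt_S (N : ℕ) {X V : ℂ} (hX : X ≠ 0) (hV : 0 < V.re) :
    HasFDerivAt (fun p : ℂ × ℂ => S N p.1 p.2)
      ((EE X V * rr V * nu N X V) • ContinuousLinearMap.fst ℂ ℂ ℂ +
        (-2 * EE X V * tau N X V / (X * rr V)) • ContinuousLinearMap.snd ℂ ℂ ℂ) (X, V) := by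
  have hV0 : V ≠ 0 := by rintro rfl; simp at hV
  have h := (differentiableAt_S N hX hV).hasFDerivAt
  set L := fderiv ℂ (fun p : ℂ × ℂ => S N p.1 p.2) (X, V)
  have h1 : L (1, 0) = EE X V * rr V * nu N X V := by
    have := h.comp_hasDerivAt X ((hasDerivAt_id X).prodMk (hasDerivAt_const X V))
    exact this.unique (hasDerivAt_S_X N hX hV0)
  have h2 : L (0, 1) = -2 * EE X V * tau N X V / (X * rr V) := by
    have := h.comp_hasDerivAt V ((hasDerivAt_const V X).prodMk (hasDerivAt_id V))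
    exact this.unique (hasDerivAt_S_V N hX hV)
  refine h.congr_fderiv ?_
  rw [← h1, ← h2]
  ext <;> simp

/-- chain rule form -/
theorem hasFDerivAt_S_comp {Z : Type*} [NormedAddCommGroup Z] [NormedSpace ℂ Z] (N : ℕ)
    {X V : Z → ℂ} {X' V' : Z →L[ℂ] ℂ} {z : Z} (h1 : HasFDerivAt X X' z) (h2 : HasFDerivAt V V' z)
    (hX : X z ≠ 0) (hV : 0 < (V z).re) :
    HasFDerivAt (fun z => S N (X z) (V z))
      ((EE (X z) (V z) * rr (V z) * nu N (X z) (V z)) • X' +
        (-2 * EE (X z) (V z) * tau N (X z) (V z) / (X z * rr (V z))) • V') z := by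
  have := (hasFDerivAt_S N hX hV).comp z (h1.prodMk h2)
  refine this.congr_fderiv ?_
  ext v; simp

end Crest.Agent.N250.HJ
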