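import Crest.Agent.N250.HJ.Dd
import Crest.Agent.N250.HJ.Der

/-! # Row 250, end action: slope and Hamilton–Jacobi residual of the polynomial ansatz -/

namespace Crest.Agent.N250.HJ

/-- the threshold for `N` -/
def N0 : ℕ := 1000000

namespace Adm

variable {N : ℕ} {X V : ℂ}

lemma hV0 (h : Adm N X V) : V ≠ 0 := by
  intro h0; have := h.hV; rw [h0] at this; simp at this

lemma y_eq (h : Adm N X V) : 1 / X ^ 2 = 2 * V * ww X V := by
  have := h.hX; have := h.hV0; unfold ww; field_simp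

lemma y_le (h : Adm N X V) : ‖1 / X ^ 2‖ ≤ 8 * ‖ww X V‖ := by
  rw [h.y_eq, norm_mul, norm_mul, Complex.norm_ofNat]
  have := h.hV'
  have := norm_nonneg (ww X V)
  nlinarith

lemma w_small (h : Adm N X V) (hN : N0 ≤ N) : ‖ww X V‖ ≤ 1 / 7000000 := by
  refine h.hw.trans (one_div_le_one_div_of_le (by norm_num) ?_)
  have : ((1000000 : ℕ) : ℝ) ≤ N := by exact_mod_cast hN
  push_cast at this; linarith

lemma tau_sub (h : Adm N X V) : ‖tau N X V - (1 - V)‖ ≤ 3864 * ‖ww X V‖ := by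
  have e : tau N X V - (1 - V) = (cN N (ww X V) - 1) + V * eN N (ww X V) +
      V * (V - 3) * (1 / X ^ 2) := by unfold tau; ring
  have h1 := norm_cN_le h.hw
  have h2 := norm_eN_le h.hw
  have h3 := h.y_le
  have h4 := h.hV'
  have h5 : ‖V - 3‖ ≤ 7 := (norm_sub_le _ _).trans (by rw [Complex.norm_ofNat]; linarith)
  rw [e]
  refine (norm_add₃_le).trans ?_
  rw [norm_mul, norm_mul, norm_mul]
  have h6 : ‖V‖ * ‖eN N (ww X V)‖ ≤ 4 * (728 * ‖ww X V‖) := by gcongr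
  have h7 : ‖V‖ * ‖V - 3‖ * ‖1 / X ^ 2‖ ≤ 4 * 7 * (8 * ‖ww X V‖) := by gcongr
  linarith

lemma tau_le (h : Adm N X V) (hN : N0 ≤ N) : ‖tau N X V‖ ≤ 6 := by
  have h1 := h.tau_sub
  have h2 := h.w_small hN
  have h3 : ‖1 - V‖ ≤ 5 := (norm_sub_le _ _).trans (by rw [norm_one]; linarith [h.hV'])
  have := norm_add_le (tau N X V - (1 - V)) (1 - V)
  rw [sub_add_cancel] at this
  linarith

lemma cs_sq (N : ℕ) (X V : ℂ) : cs N X V ^ 2 = 1 - 4 * ww X V * tau N X V ^ 2 := sqrt_sq _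

lemma z_le (h : Adm N X V) (hN : N0 ≤ N) : ‖4 * ww X V * tau N X V ^ 2‖ ≤ 144 * ‖ww X V‖ := by
  rw [norm_mul, norm_mul, norm_pow, Complex.norm_ofNat]
  have h1 := h.tau_le hN
  calc 4 * ‖ww X V‖ * ‖tau N X V‖ ^ 2 ≤ 4 * ‖ww X V‖ * 6 ^ 2 := by gcongr
    _ = _ := by ring

lemma cs_sub (h : Adm N X V) (hN : N0 ≤ N) : ‖cs N X V - 1‖ ≤ 144 * ‖ww X V‖ :=
  (sqrt_sub_one _).trans (h.z_le hN)

lemma le_cs (h : Adm N X V) (hN : N0 ≤ N) : 1 / 2 ≤ ‖cs N X V‖ := by
  have h1 := h.cs_sub hN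
  have h2 := h.w_small hN
  have := norm_sub_le (cs N X V) (cs N X V - 1)
  rw [sub_sub_cancel, norm_one] at this
  linarith

lemma cs_ne (h : Adm N X V) (hN : N0 ≤ N) : cs N X V ≠ 0 := by
  intro h0; have := h.le_cs hN; rw [h0, norm_zero] at this; linarith

lemma inv_cs_sub (h : Adm N X V) (hN : N0 ≤ N) : ‖1 / cs N X V - 1‖ ≤ 288 * ‖ww X V‖ := by
  have h0 := h.cs_ne hN
  have e : 1 / cs N X V - 1 = -(cs N X V - 1) / cs N X V := by field_simp; ring
  have h1 := h.le_cs hN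
  have h2 := h.cs_sub hN
  rw [e, norm_div, norm_neg, div_le_iff₀ (by linarith)]
  nlinarith [norm_nonneg (ww X V)]

lemma nu_sub (h : Adm N X V) (hN : N0 ≤ N) : ‖nu N X V - 1‖ ≤ 800 * ‖ww X V‖ := by
  have e : nu N X V - 1 = -eN N (ww X V) + (-V + 2 * (1 - 2 * eN N (ww X V) -
      (cN N (ww X V) - 1) - 3 * V * (1 / X ^ 2))) * (1 / X ^ 2) := by unfold nu; ring
  have h1 := norm_cN_le h.hw
  have h2 := norm_eN_le h.hw
  have h3 := h.y_le
  have h4 := h.hV'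
  have h5 := h.w_small hN
  have h6 : ‖1 - 2 * eN N (ww X V) - (cN N (ww X V) - 1) - 3 * V * (1 / X ^ 2)‖ ≤ 2 := by
    refine (norm_sub_le _ _).trans ?_
    have a1 := norm_sub_le (1 - 2 * eN N (ww X V)) (cN N (ww X V) - 1)
    have a2 := norm_sub_le 1 (2 * eN N (ww X V))
    have a3 : ‖V‖ * ‖1 / X ^ 2‖ ≤ 4 * (8 * ‖ww X V‖) := by gcongr
    rw [norm_mul, norm_one, Complex.norm_ofNat] at a2
    rw [norm_mul, norm_mul, Complex.norm_ofNat]
    nlinarith
  have h7 : ‖-V + 2 * (1 - 2 * eN N (ww X V) - (cN N (ww X V) - 1) - 3 * V * (1 / X ^ 2))‖ ≤ 8 := by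
    refine (norm_add_le _ _).trans ?_
    rw [norm_neg, norm_mul, Complex.norm_ofNat]; linarith
  rw [e]
  refine (norm_add_le _ _).trans ?_
  rw [norm_neg, norm_mul]
  have h8 := mul_le_mul h7 h3 (norm_nonneg _) (by norm_num)
  linarith [norm_nonneg (ww X V)]

/-- (c) the slope follows the slow manifold up to `O(w)` -/
theorem slope_sub (h : Adm N X V) (hN : N0 ≤ N) :
    ‖X * slope N X V - 2 * (V - 1)‖ ≤ 12000 * ‖ww X V‖ := by
  have h0 := h.cs_ne hN
  have hX := h.hX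
  have e : X * slope N X V - 2 * (V - 1) = -2 * ((tau N X V - (1 - V)) +
      tau N X V * (1 / cs N X V - 1)) := by unfold slope; field_simp; ring
  have h1 := h.tau_sub
  have h2 := mul_le_mul (h.tau_le hN) (h.inv_cs_sub hN) (norm_nonneg _) (by norm_num)
  have h3 := norm_add_le (tau N X V - (1 - V)) (tau N X V * (1 / cs N X V - 1))
  rw [norm_mul] at h3
  rw [e, norm_mul, norm_neg, Complex.norm_ofNat]
  nlinarith [norm_nonneg (ww X V)]

lemma Q_eq (h : Adm N X V) (hN : N0 ≤ N) :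
    2 * V + slope N X V ^ 2 = (rr V / cs N X V) ^ 2 := by
  have h0 := h.cs_ne hN
  have hX := h.hX
  have hV := h.hV0
  have h1 := cs_sq N X V
  have h2 : ww X V * (2 * V * X ^ 2) = 1 := by unfold ww; field_simp
  rw [div_pow, rr_sq, slope]
  field_simp
  linear_combination (X ^ 2 * V) * h1 - 2 * tau N X V ^ 2 * h2

/-- (b) the area element at the cut -/
theorem sqrt_Q (h : Adm N X V) (hN : N0 ≤ N) :
    (2 * V + slope N X V ^ 2) ^ (1 / 2 : ℂ) = rr V / cs N X V := by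
  refine sqrt_eq (h.Q_eq hN).symm ?_
  have e : rr V / cs N X V = rr V + rr V * (1 / cs N X V - 1) := by ring
  have h1 := norm_rr_le h.hV
  have h2 := h.inv_cs_sub hN
  have h3 := h.w_small hN
  have h4 := Complex.abs_re_le_norm (rr V * (1 / cs N X V - 1))
  have h5 : 0 < ‖rr V‖ := norm_pos_iff.2 (rr_ne h.hV0)
  rw [norm_mul] at h4
  have h6 : ‖rr V‖ * ‖1 / cs N X V - 1‖ ≤ ‖rr V‖ * (1 / 4) := by gcongr; linarith
  rw [e, Complex.add_re]
  have := neg_abs_le (rr V * (1 / cs N X V - 1)).re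
  linarith

/-- (b') the same with the factor `r` taken out -/
theorem sqrt_Q' (h : Adm N X V) (hN : N0 ≤ N) :
    (1 + slope N X V ^ 2 / (2 * V)) ^ (1 / 2 : ℂ) = 1 / cs N X V := by
  have hV := h.hV0
  have h0 := h.cs_ne hN
  refine sqrt_eq ?_ ?_
  · have h1 := h.Q_eq hN
    rw [div_pow, rr_sq] at h1
    have : slope N X V ^ 2 = 2 * V / cs N X V ^ 2 - 2 * V := by linear_combination h1
    rw [this]; field_simp; ring
  · have h2 := h.inv_cs_sub hN
    have h3 := h.w_small hN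
    have h4 := Complex.abs_re_le_norm (1 / cs N X V - 1)
    have := neg_abs_le (1 / cs N X V - 1).re
    rw [Complex.sub_re, Complex.one_re] at this h4
    linarith

/-- (b) the momentum at the cut is `∂_V S` -/
theorem mom (h : Adm N X V) (hN : N0 ≤ N) :
    EE X V * slope N X V / (rr V / cs N X V) = -2 * EE X V * tau N X V / (X * rr V) := by
  have h0 := h.cs_ne hN
  have hX := h.hX
  have hr := rr_ne h.hV0
  unfold slope; field_simp

/-- (b) `Lag - p Lag_p` at the cut -/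
theorem ham (h : Adm N X V) (hN : N0 ≤ N) :
    EE X V * (rr V / cs N X V) - slope N X V * (EE X V * slope N X V / (rr V / cs N X V)) =
      EE X V * rr V * cs N X V := by
  have h0 := h.cs_ne hN
  have hr := rr_ne h.hV0
  have h1 := h.Q_eq hN
  have h2 : slope N X V ^ 2 = (rr V / cs N X V) ^ 2 - rr V ^ 2 := by
    rw [rr_sq]; linear_combination h1
  have e : slope N X V * (EE X V * slope N X V / (rr V / cs N X V)) =
      EE X V * slope N X V ^ 2 / (rr V / cs N X V) := by ring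
  rw [e, h2]; field_simp; ring

lemma q_eq (h : Adm N X V) : nu N X V ^ 2 - cs N X V ^ 2 = DD N (ww X V) + (1 / X ^ 2) *
    (8 * (1 - eN N (ww X V)) * (-eN N (ww X V) - (cN N (ww X V) - 1)) -
      2 * V * (1 - eN N (ww X V)) * eN N (ww X V) - 12 * V * (1 / X ^ 2) * (1 - eN N (ww X V)) +
      (1 / X ^ 2) * (-V + 2 * (2 * (1 - eN N (ww X V)) - cN N (ww X V)) - 6 * V * (1 / X ^ 2)) ^ 2 +
      4 * ww X V * (V * (V - 3)) * (2 * (cN N (ww X V) - V * (1 - eN N (ww X V))) +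
        (1 / X ^ 2) * (V * (V - 3)))) := by
  have h1 := h.y_eq
  rw [cs_sq]
  have e1 : nu N X V = (1 - eN N (ww X V)) - V * (1 / X ^ 2) +
      2 * (1 / X ^ 2) * (2 * (1 - eN N (ww X V)) - cN N (ww X V) - 3 * V * (1 / X ^ 2)) := by
    unfold nu; ring
  have e2 : tau N X V = cN N (ww X V) - V * (1 - eN N (ww X V)) + V * (V - 3) * (1 / X ^ 2) := by
    unfold tau; ring
  rw [e1, e2, h1]; unfold DD; ring

lemma q_sub (h : Adm N X V) (hN : N0 ≤ N) :
    ‖nu N X V ^ 2 - cs N X V ^ 2 - DD N (ww X V)‖ ≤ 50000 * ‖ww X V‖ * ‖1 / X ^ 2‖ := by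
  rw [h.q_eq, add_sub_cancel_left, norm_mul, mul_comm]
  refine mul_le_mul_of_nonneg_right ?_ (norm_nonneg _)
  have h1 := norm_cN_le h.hw
  have h2 := norm_eN_le h.hw
  have h3 := h.y_le
  have h4 := h.hV'
  have h5 := h.w_small hN
  have h6 : ‖V - 3‖ ≤ 7 := (norm_sub_le _ _).trans (by rw [Complex.norm_ofNat]; linarith)
  generalize 1 / X ^ 2 = y at *
  generalize eN N (ww X V) = e at *
  generalize cN N (ww X V) = C at *
  generalize ww X V = w at *
  have hw := norm_nonneg w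
  have g1 : ‖1 - e‖ ≤ 2 := (norm_sub_le _ _).trans (by rw [norm_one]; linarith)
  have g2 : ‖C‖ ≤ 2 := by
    have := norm_add_le (C - 1) 1
    rw [sub_add_cancel, norm_one] at this; linarith
  have g3 : ‖-e - (C - 1)‖ ≤ 1456 * ‖w‖ := (norm_sub_le _ _).trans (by rw [norm_neg]; linarith)
  have g4 : ‖V * (V - 3)‖ ≤ 28 := by rw [norm_mul]; nlinarith [norm_nonneg V, norm_nonneg (V - 3)]
  have g5 : ‖y‖ ≤ 1 / 100 := by linarith
  have g6 : ‖-V + 2 * (2 * (1 - e) - C) - 6 * V * y‖ ≤ 17 := by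
    refine (norm_sub_le _ _).trans ?_
    have a1 := norm_add_le (-V) (2 * (2 * (1 - e) - C))
    have a2 := norm_sub_le (2 * (1 - e)) C
    have a3 : ‖V‖ * ‖y‖ ≤ 4 * (1 / 100) := by gcongr
    simp only [norm_mul, norm_neg, Complex.norm_ofNat] at a1 a2 ⊢
    nlinarith
  have g7 : ‖2 * (C - V * (1 - e)) + y * (V * (V - 3))‖ ≤ 21 := by
    refine (norm_add_le _ _).trans ?_
    have a1 := norm_sub_le C (V * (1 - e))
    have a2 : ‖V‖ * ‖1 - e‖ ≤ 4 * 2 := by gcongr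
    have a3 : ‖y‖ * ‖V * (V - 3)‖ ≤ 1 / 100 * 28 := by gcongr
    rw [norm_mul] at a1
    rw [norm_mul, norm_mul y, Complex.norm_ofNat]
    linarith
  have t1 : ‖8 * (1 - e) * (-e - (C - 1))‖ ≤ 8 * 2 * (1456 * ‖w‖) := by
    rw [norm_mul, norm_mul, Complex.norm_ofNat]; gcongr
  have t2 : ‖2 * V * (1 - e) * e‖ ≤ 2 * 4 * 2 * (728 * ‖w‖) := by
    rw [norm_mul, norm_mul, norm_mul, Complex.norm_ofNat]; gcongr
  have t3 : ‖12 * V * y * (1 - e)‖ ≤ 12 * 4 * (8 * ‖w‖) * 2 := by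
    rw [norm_mul, norm_mul, norm_mul, Complex.norm_ofNat]; gcongr
  have t4 : ‖y * (-V + 2 * (2 * (1 - e) - C) - 6 * V * y) ^ 2‖ ≤ (8 * ‖w‖) * 17 ^ 2 := by
    rw [norm_mul, norm_pow]; gcongr
  have t5 : ‖4 * w * (V * (V - 3)) * (2 * (C - V * (1 - e)) + y * (V * (V - 3)))‖ ≤
      4 * ‖w‖ * 28 * 21 := by
    rw [norm_mul, norm_mul, norm_mul, Complex.norm_ofNat]; gcongr
  refine (norm_add₃_le).trans ?_
  have b1 := norm_sub_le (8 * (1 - e) * (-e - (C - 1)) - 2 * V * (1 - e) * e)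
    (12 * V * y * (1 - e))
  have b2 := norm_sub_le (8 * (1 - e) * (-e - (C - 1))) (2 * V * (1 - e) * e)
  linarith

lemma res_core (h : Adm N X V) (hN : N0 ≤ N) :
    ‖nu N X V - cs N X V - kap N * ww X V ^ (N + 1)‖ ≤
      3500 * (kap N * ‖ww X V‖ ^ (N + 1) / ((N : ℝ) + 1)) + 50000 * (‖ww X V‖ / ‖X‖ ^ 2) := by
  have h1 := h.nu_sub hN
  have h2 := h.cs_sub hN
  have h3 := h.w_small hN
  have h4 := h.q_sub hN
  have h5 := DD_lead (N := N) (le_trans (by decide) hN) h.hw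
  have h6 : ‖nu N X V + cs N X V - 2‖ ≤ 944 * ‖ww X V‖ := by
    have := norm_add_le (nu N X V - 1) (cs N X V - 1)
    rw [show nu N X V - 1 + (cs N X V - 1) = nu N X V + cs N X V - 2 by ring] at this
    linarith
  have h7 : 1 ≤ ‖nu N X V + cs N X V‖ := by
    have := norm_sub_le (nu N X V + cs N X V) (nu N X V + cs N X V - 2)
    rw [sub_sub_cancel, Complex.norm_ofNat] at this
    linarith
  have e : (nu N X V - cs N X V - kap N * ww X V ^ (N + 1)) * (nu N X V + cs N X V) =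
      (nu N X V ^ 2 - cs N X V ^ 2 - DD N (ww X V)) + (DD N (ww X V) - 2 * kap N * ww X V ^ (N + 1)) -
        kap N * ww X V ^ (N + 1) * (nu N X V + cs N X V - 2) := by ring
  have hk := kap_pos N
  have h8 : ‖(kap N : ℂ) * ww X V ^ (N + 1) * (nu N X V + cs N X V - 2)‖ ≤
      135 * (kap N * ‖ww X V‖ ^ (N + 1) / ((N : ℝ) + 1)) := by
    rw [norm_mul, norm_mul, norm_pow, Complex.norm_real, Real.norm_of_nonneg hk.le]
    have a1 : 944 * ‖ww X V‖ ≤ 135 / ((N : ℝ) + 1) := by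
      calc 944 * ‖ww X V‖ ≤ 944 * (1 / (7 * ((N : ℝ) + 1))) := by gcongr; exact h.hw
        _ = (944 / 7) / ((N : ℝ) + 1) := by field_simp
        _ ≤ _ := by gcongr; norm_num
    calc kap N * ‖ww X V‖ ^ (N + 1) * ‖nu N X V + cs N X V - 2‖
        ≤ kap N * ‖ww X V‖ ^ (N + 1) * (135 / ((N : ℝ) + 1)) := by gcongr; exact h6.trans a1
      _ = _ := by ring
  have h9 := congrArg norm e
  rw [norm_mul] at h9
  have h10 := norm_sub_le ((nu N X V ^ 2 - cs N X V ^ 2 - DD N (ww X V)) +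
    (DD N (ww X V) - 2 * kap N * ww X V ^ (N + 1)))
    (kap N * ww X V ^ (N + 1) * (nu N X V + cs N X V - 2))
  have h11 := norm_add_le (nu N X V ^ 2 - cs N X V ^ 2 - DD N (ww X V))
    (DD N (ww X V) - 2 * kap N * ww X V ^ (N + 1))
  have h12 : 50000 * ‖ww X V‖ * ‖1 / X ^ 2‖ = 50000 * (‖ww X V‖ / ‖X‖ ^ 2) := by
    rw [norm_div, norm_one, norm_pow]; ring
  have h13 : 3276 / ((N : ℝ) + 1) * kap N * ‖ww X V‖ ^ (N + 1) =
      3276 * (kap N * ‖ww X V‖ ^ (N + 1) / ((N : ℝ) + 1)) := by ring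
  have h14 : 0 ≤ kap N * ‖ww X V‖ ^ (N + 1) / ((N : ℝ) + 1) := by positivity
  have h15 := le_mul_of_one_le_right
    (norm_nonneg (nu N X V - cs N X V - kap N * ww X V ^ (N + 1))) h7
  linarith

/-- (d) the Hamilton–Jacobi residual -/
theorem res (h : Adm N X V) (hN : N0 ≤ N) :
    ‖R N X V - EE X V * rr V * (kap N * ww X V ^ (N + 1))‖ ≤ ‖EE X V‖ * ‖rr V‖ *
      (3500 * (kap N * ‖ww X V‖ ^ (N + 1) / ((N : ℝ) + 1)) + 50000 * (‖ww X V‖ / ‖X‖ ^ 2)) := by
  rw [R, ← mul_sub, norm_mul, norm_mul]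
  gcongr
  exact h.res_core hN

/-- the slope is holomorphic -/
theorem differentiableAt_slope (h : Adm N X V) (hN : N0 ≤ N) :
    DifferentiableAt ℂ (fun p : ℂ × ℂ => slope N p.1 p.2) (X, V) := by
  have hX := h.hX
  have h0 := differentiableAt_ww hX h.hV0
  have h1 : DifferentiableAt ℂ (fun p : ℂ × ℂ => eN N (ww p.1 p.2)) (X, V) :=
    (differentiable_eN N _).comp _ h0
  have h2 : DifferentiableAt ℂ (fun p : ℂ × ℂ => cN N (ww p.1 p.2)) (X, V) :=
    (differentiable_cN N _).comp _ h0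
  have h4 : DifferentiableAt ℂ (fun p : ℂ × ℂ => p.1 ^ 2) (X, V) := by fun_prop
  have h5 : DifferentiableAt ℂ (fun p : ℂ × ℂ => (p.1 ^ 2)⁻¹) (X, V) := h4.inv (by simp [hX])
  have h6 : DifferentiableAt ℂ (fun p : ℂ × ℂ => p.2 ^ 2 - 3 * p.2) (X, V) := by fun_prop
  have h7 : DifferentiableAt ℂ (fun p : ℂ × ℂ => tau N p.1 p.2) (X, V) := by
    unfold tau
    simp only [div_eq_mul_inv]
    exact (h2.sub (differentiableAt_snd.mul (h1.const_sub _))).add (h6.mul h5)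
  have h8 : DifferentiableAt ℂ (fun p : ℂ × ℂ => cs N p.1 p.2) (X, V) := by
    unfold cs
    refine DifferentiableAt.cpow (((h0.const_mul _).mul (h7.pow 2)).const_sub _)
      (differentiableAt_const _) (Or.inl ?_)
    have a1 := h.z_le hN
    have a2 := h.w_small hN
    have a3 := Complex.re_le_norm (4 * ww X V * tau N X V ^ 2)
    simp only [Complex.sub_re, Complex.one_re]
    linarith
  unfold slope
  simp only [div_eq_mul_inv]
  exact (h7.const_mul _).mul ((differentiableAt_fst.mul h8).inv (mul_ne_zero hX (h.cs_ne hN)))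

end Adm

end Crest.Agent.N250.HJ
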