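import Crest.Agent.N250.HJ.Seq

/-! # Row 250, end action: the polynomial Hamilton–Jacobi ansatz (definitions)

Variables: `X` the cut, `V = r²/2` the mean value at the cut, `w = 1/(2 V X²)`. -/

namespace Crest.Agent.N250.HJ

open Finset

/-- `e_N(w) = Σ_{1≤k≤N} a_k w^k` -/
noncomputable def eN (N : ℕ) (w : ℂ) : ℂ := ∑ k ∈ range N, (a (k + 1) : ℂ) * w ^ (k + 1)

/-- `C_N(w) = 1 - e_N + 2 w e_N'` -/
noncomputable def cN (N : ℕ) (w : ℂ) : ℂ := ∑ k ∈ range (N + 1), (c k : ℂ) * w ^ k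

/-- the leading coefficient of the residual -/
noncomputable def kap (N : ℕ) : ℝ := 2 * cc N

/-- `w = 1/(r² X²)` -/
noncomputable def ww (X V : ℂ) : ℂ := 1 / (2 * V * X ^ 2)

/-- the Gaussian weight -/
noncomputable def EE (X V : ℂ) : ℂ := Complex.exp (-X ^ 2 / 4 - V / 2)

/-- `r = √(2V)` -/
noncomputable def rr (V : ℂ) : ℂ := (2 * V) ^ (1 / 2 : ℂ)

/-- the boundary action: the truncated problem is `action - 2π S` -/
noncomputable def S (N : ℕ) (X V : ℂ) : ℂ :=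
  -2 * EE X V * rr V / X * (1 - eN N (ww X V) - V / X ^ 2)

/-- `∂_X S = E r ν` -/
noncomputable def nu (N : ℕ) (X V : ℂ) : ℂ :=
  (1 - eN N (ww X V)) - V / X ^ 2 +
    2 / X ^ 2 * (2 * (1 - eN N (ww X V)) - cN N (ww X V) - 3 * V / X ^ 2)

/-- `∂_V S = -2 E τ / (X r)` -/
noncomputable def tau (N : ℕ) (X V : ℂ) : ℂ :=
  cN N (ww X V) - V * (1 - eN N (ww X V)) + (V ^ 2 - 3 * V) / X ^ 2

/-- cosine of the angle of the profile at the cut -/
noncomputable def cs (N : ℕ) (X V : ℂ) : ℂ :=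
  (1 - 4 * ww X V * tau N X V ^ 2) ^ (1 / 2 : ℂ)

/-- the slope `v_x` prescribed at the cut: `E p / √(2V+p²) = ∂_V S` -/
noncomputable def slope (N : ℕ) (X V : ℂ) : ℂ := -2 * tau N X V / (X * cs N X V)

/-- the Hamilton–Jacobi residual `∂_X S - (Lag - p Lag_p)` -/
noncomputable def R (N : ℕ) (X V : ℂ) : ℂ := EE X V * rr V * (nu N X V - cs N X V)

/-- the admissible far data -/
structure Adm (N : ℕ) (X V : ℂ) : Prop where
  hX : X ≠ 0
  hV : 0 < V.re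
  hV' : ‖V‖ ≤ 4
  hw : ‖ww X V‖ ≤ 1 / (7 * ((N : ℝ) + 1))

end Crest.Agent.N250.HJ
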