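import Crest.Agent.N250.HJ.Defs

/-! # Row 250, end action: real estimates for the truncated series -/

namespace Crest.Agent.N250.HJ

open Finset

lemma geo2 (n : ℕ) : ∑ i ∈ range n, ((i : ℝ) + 1) ^ 2 * (11 / 14) ^ i ≤ 182 := by
  have h : ∀ n : ℕ, ∑ i ∈ range n, ((i : ℝ) + 1) ^ 2 * (11 / 14) ^ i +
      (11 / 14 : ℝ) ^ n * (14 / 3 * (n : ℝ) ^ 2 + 392 / 9 * n + 4900 / 27) = 4900 / 27 := by
    intro n
    induction n with
    | zero => simp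
    | succ n ih => rw [sum_range_succ, pow_succ (11 / 14 : ℝ) n]; push_cast; linear_combination ih
  have h1 := h n
  have h2 : 0 ≤ (11 / 14 : ℝ) ^ n * (14 / 3 * (n : ℝ) ^ 2 + 392 / 9 * n + 4900 / 27) := by
    positivity
  linarith

/-- `ρ^k 11^k k! ≤ (11 (k+1) / (14 M))^k` -/
lemma pow_fact_le {M : ℝ} (hM : 0 < M) {ρ : ℝ} (h0 : 0 ≤ ρ) (h : ρ ≤ 1 / (7 * M)) (k : ℕ) :
    ρ ^ k * (11 ^ k * k.factorial) ≤ (11 / 14) ^ k * (((k : ℝ) + 1) / M) ^ k := by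
  have h1 := two_pow_fact_le k
  have h2 : ρ ^ k ≤ (1 / (7 * M)) ^ k := pow_le_pow_left₀ h0 h k
  have h3 : (11 / 14 : ℝ) ^ k * (((k : ℝ) + 1) / M) ^ k * 2 ^ k =
      (1 / (7 * M)) ^ k * 11 ^ k * ((k : ℝ) + 1) ^ k := by
    rw [← mul_pow, ← mul_pow, ← mul_pow, ← mul_pow]; congr 1; field_simp; ring
  have h4 : (0 : ℝ) < 2 ^ k := by positivity
  refine le_of_mul_le_mul_right ?_ h4
  rw [h3]
  calc ρ ^ k * (11 ^ k * k.factorial) * 2 ^ k = ρ ^ k * 11 ^ k * (2 ^ k * k.factorial) := by ring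
    _ ≤ _ := by gcongr

lemma a_term {M ρ : ℝ} (hM : 0 < M) (h0 : 0 ≤ ρ) (h : ρ ≤ 1 / (7 * M)) {k : ℕ}
    (hk : (k : ℝ) + 1 ≤ M) : a (k + 1) * ρ ^ (k + 1) ≤ 2 * ρ * (11 / 14) ^ k := by
  have h1 := pow_fact_le hM h0 h k
  have h2 : (((k : ℝ) + 1) / M) ^ k ≤ 1 :=
    pow_le_one₀ (by positivity) ((div_le_one hM).2 hk)
  have h3 : (11 / 14 : ℝ) ^ k * (((k : ℝ) + 1) / M) ^ k ≤ (11 / 14) ^ k :=
    mul_le_of_le_one_right (by positivity) h2
  calc a (k + 1) * ρ ^ (k + 1) ≤ (2 * 11 ^ k * k.factorial) * ρ ^ (k + 1) := by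
        gcongr; exact a_le k
    _ = 2 * ρ * (ρ ^ k * (11 ^ k * k.factorial)) := by ring
    _ ≤ _ := by gcongr; exact h1.trans h3

lemma c_term {M ρ : ℝ} (hM : 0 < M) (h0 : 0 ≤ ρ) (h : ρ ≤ 1 / (7 * M)) {k : ℕ}
    (hk : (k : ℝ) + 1 ≤ M) :
    c (k + 1) * ρ ^ (k + 1) ≤ 4 * ρ * (((k : ℝ) + 1) ^ 2 * (11 / 14) ^ k) := by
  have h1 := a_term hM h0 h hk
  have h3 : c (k + 1) = (2 * k + 1) * a (k + 1) := by simp only [c]; push_cast; ring
  have h4 : (0 : ℝ) ≤ k := by positivity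
  have h5 : (0 : ℝ) ≤ ρ * (11 / 14) ^ k := by positivity
  rw [h3]
  calc (2 * k + 1) * a (k + 1) * ρ ^ (k + 1) = (2 * k + 1) * (a (k + 1) * ρ ^ (k + 1)) := by ring
    _ ≤ (2 * k + 1) * (2 * ρ * (11 / 14) ^ k) := by gcongr
    _ ≤ _ := by nlinarith [mul_nonneg h5 h4, mul_nonneg h5 (mul_nonneg h4 h4)]

lemma sum_c_le {N : ℕ} {ρ : ℝ} (h0 : 0 ≤ ρ) (h : ρ ≤ 1 / (7 * ((N : ℝ) + 1))) :
    ∑ k ∈ range N, c (k + 1) * ρ ^ (k + 1) ≤ 728 * ρ := by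
  calc ∑ k ∈ range N, c (k + 1) * ρ ^ (k + 1)
      ≤ ∑ k ∈ range N, 4 * ρ * (((k : ℝ) + 1) ^ 2 * (11 / 14) ^ k) := by
        refine sum_le_sum fun k hk => c_term (by positivity) h0 h ?_
        have : (k : ℝ) ≤ N := by exact_mod_cast (mem_range.1 hk).le
        linarith
    _ = 4 * ρ * ∑ k ∈ range N, (((k : ℝ) + 1) ^ 2 * (11 / 14) ^ k) := by rw [mul_sum]
    _ ≤ 4 * ρ * 182 := by gcongr; exact geo2 N
    _ = _ := by ring

lemma norm_eN_le {N : ℕ} {w : ℂ} (h : ‖w‖ ≤ 1 / (7 * ((N : ℝ) + 1))) :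
    ‖eN N w‖ ≤ 728 * ‖w‖ := by
  refine le_trans ?_ (sum_c_le (norm_nonneg w) h)
  refine (norm_sum_le _ _).trans (sum_le_sum fun k _ => ?_)
  rw [norm_mul, norm_pow, Complex.norm_real, Real.norm_of_nonneg (a_pos _ (by omega)).le]
  gcongr
  exact a_le_c (by omega)

lemma norm_cN_le {N : ℕ} {w : ℂ} (h : ‖w‖ ≤ 1 / (7 * ((N : ℝ) + 1))) :
    ‖cN N w - 1‖ ≤ 728 * ‖w‖ := by
  refine le_trans ?_ (sum_c_le (norm_nonneg w) h)
  have : cN N w - 1 = ∑ k ∈ range N, (c (k + 1) : ℂ) * w ^ (k + 1) := by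
    unfold cN; rw [sum_range_succ']; simp [c_zero]
  rw [this]
  refine (norm_sum_le _ _).trans (sum_le_sum fun k _ => ?_)
  rw [norm_mul, norm_pow, Complex.norm_real, Real.norm_of_nonneg (c_pos _).le]

/-- `t_j ≤ (7/4)^d t_{j+d}` in the upper half -/
lemma t_up {M : ℕ} (hM : 0 < M) (j : ℕ) (hj : M ≤ 2 * j) (d : ℕ) :
    c j * (1 / (7 * (M : ℝ))) ^ j ≤ 2 ^ d * (7 / 8) ^ d * (c (j + d) * (1 / (7 * (M : ℝ))) ^ (j + d)) := by
  induction d with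
  | zero => simp
  | succ d ih =>
    have hM' : (0 : ℝ) < M := by exact_mod_cast hM
    have h1 := c_ratio (k := j + d) (by omega)
    have h2 : (4 : ℝ) * M ≤ 8 * ((j + d : ℕ) : ℝ) + 4 := by
      have : ((M : ℕ) : ℝ) ≤ ((2 * j : ℕ) : ℝ) := by exact_mod_cast hj
      push_cast at this ⊢
      have : (0 : ℝ) ≤ d := by positivity
      linarith
    have h3 : 4 * M * c (j + d) ≤ c (j + d + 1) :=
      le_trans (mul_le_mul_of_nonneg_right h2 (c_pos _).le) h1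
    have h4 : c (j + d) ≤ 2 * (7 / 8) * (c (j + d + 1) * (1 / (7 * (M : ℝ)))) := by
      rw [show 2 * (7 / 8) * (c (j + d + 1) * (1 / (7 * (M : ℝ)))) = c (j + d + 1) / (4 * M) by
        field_simp; ring, le_div_iff₀ (by positivity)]
      linarith
    refine ih.trans ?_
    rw [← add_assoc, pow_succ, pow_succ, pow_succ]
    have h5 : (0 : ℝ) ≤ 2 ^ d * (7 / 8) ^ d * (1 / (7 * (M : ℝ))) ^ (j + d) := by positivity
    calc 2 ^ d * (7 / 8) ^ d * (c (j + d) * (1 / (7 * (M : ℝ))) ^ (j + d))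
        = (2 ^ d * (7 / 8) ^ d * (1 / (7 * (M : ℝ))) ^ (j + d)) * c (j + d) := by ring
      _ ≤ (2 ^ d * (7 / 8) ^ d * (1 / (7 * (M : ℝ))) ^ (j + d)) *
          (2 * (7 / 8) * (c (j + d + 1) * (1 / (7 * (M : ℝ))))) := by gcongr
      _ = _ := by ring

lemma two_pow_le {n m : ℕ} (hn : 0 < n) (h : m ≤ n) :
    (2 : ℝ) ^ m * (n : ℝ) ^ n ≤ ((n : ℝ) + m) ^ n := by
  have hn' : (0 : ℝ) < n := by exact_mod_cast hn
  have h1 : (1 + 1 : ℝ) ^ ((m : ℝ) / n) ≤ 1 + (m : ℝ) / n * 1 :=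
    rpow_one_add_le_one_add_mul_self (by norm_num) (by positivity)
      ((div_le_one hn').2 (by exact_mod_cast h))
  have h2 : ((1 + 1 : ℝ) ^ ((m : ℝ) / n)) ^ n = 2 ^ m := by
    rw [← Real.rpow_natCast, ← Real.rpow_mul (by norm_num), div_mul_cancel₀ _ hn'.ne',
      Real.rpow_natCast]; norm_num
  have h3 : ((n : ℝ) + m) ^ n = (1 + (m : ℝ) / n * 1) ^ n * (n : ℝ) ^ n := by
    rw [← mul_pow]; congr 1; field_simp
  rw [h3, ← h2]
  gcongr

lemma t_le {M : ℕ} (hM : 0 < M) (i : ℕ) (hi : 1 ≤ i) :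
    c i * (1 / (7 * (M : ℝ))) ^ i ≤ 4 / 11 * ((11 / 14) ^ i * (((i : ℝ) + 1) / M) ^ i) := by
  obtain ⟨k, rfl⟩ : ∃ k, i = k + 1 := ⟨i - 1, by omega⟩
  have hM' : (0 : ℝ) < M := by exact_mod_cast hM
  have h1 := pow_fact_le hM' (ρ := 1 / (7 * (M : ℝ))) (by positivity) le_rfl (k + 1)
  calc c (k + 1) * (1 / (7 * (M : ℝ))) ^ (k + 1)
      ≤ (4 * 11 ^ k * (k + 1).factorial) * (1 / (7 * (M : ℝ))) ^ (k + 1) := by
        gcongr; exact c_le k
    _ = 4 / 11 * ((1 / (7 * (M : ℝ))) ^ (k + 1) * (11 ^ (k + 1) * (k + 1).factorial)) := by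
        rw [pow_succ (11 : ℝ) k]; ring
    _ ≤ _ := by gcongr

/-- the pair estimate -/
lemma pair_le {N i j : ℕ} (hij : i ≤ j) (hj : j ≤ N) (h : N + 1 ≤ i + j) :
    (c i * (1 / (7 * ((N : ℝ) + 1))) ^ i) * (c j * (1 / (7 * ((N : ℝ) + 1))) ^ j) ≤
      2 / ((N : ℝ) + 1) * (((i : ℝ) + 1) * (11 / 14) ^ i) *
        (c N * (1 / (7 * ((N : ℝ) + 1))) ^ N) := by
  obtain ⟨d, rfl⟩ : ∃ d, N = j + d := ⟨N - j, by omega⟩
  have hM : 0 < j + d + 1 := by omega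
  have h1 := t_up hM j (by omega) d
  have h2 := t_le hM i (by omega)
  have e : ((j + d + 1 : ℕ) : ℝ) = ((j + d : ℕ) : ℝ) + 1 := by push_cast; ring
  rw [e] at h1 h2
  set M : ℝ := ((j + d : ℕ) : ℝ) + 1 with hMdef
  have hM' : 0 < M := by positivity
  set T := c (j + d) * (1 / (7 * M)) ^ (j + d) with hT
  have hT0 : 0 ≤ T := mul_nonneg (c_pos _).le (by positivity)
  have key : (((i : ℝ) + 1) / M) ^ i * (2 ^ d * (7 / 8) ^ d) ≤ 4 * (((i : ℝ) + 1) / M) := by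
    by_cases hA : 2 * (i + 1) ≤ j + d + 1
    · obtain ⟨k, rfl⟩ : ∃ k, i = k + 1 := ⟨i - 1, by omega⟩
      have hz : (((k + 1 : ℕ) : ℝ) + 1) / M ≤ 1 / 2 := by
        rw [div_le_div_iff₀ hM' two_pos]
        have : ((2 * (k + 1 + 1) : ℕ) : ℝ) ≤ ((j + d + 1 : ℕ) : ℝ) := by exact_mod_cast hA
        rw [e] at this
        push_cast at this ⊢
        linarith
      have hz0 : 0 ≤ (((k + 1 : ℕ) : ℝ) + 1) / M := by positivity
      have h3 : (2 : ℝ) ^ d * (7 / 8) ^ d ≤ 2 ^ k := by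
        calc (2 : ℝ) ^ d * (7 / 8) ^ d ≤ 2 ^ d * 1 := by
              gcongr; exact pow_le_one₀ (by norm_num) (by norm_num)
          _ ≤ 2 ^ k := by
              rw [mul_one]; exact pow_le_pow_right₀ (by norm_num) (by omega)
      have h4 : ((((k + 1 : ℕ) : ℝ) + 1) / M) ^ k * 2 ^ k ≤ 1 := by
        rw [← mul_pow]; exact pow_le_one₀ (by positivity) (by linarith)
      calc ((((k + 1 : ℕ) : ℝ) + 1) / M) ^ (k + 1) * (2 ^ d * (7 / 8) ^ d)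
          ≤ ((((k + 1 : ℕ) : ℝ) + 1) / M) ^ (k + 1) * 2 ^ k := by gcongr
        _ = ((((k + 1 : ℕ) : ℝ) + 1) / M) * (((((k + 1 : ℕ) : ℝ) + 1) / M) ^ k * 2 ^ k) := by ring
        _ ≤ ((((k + 1 : ℕ) : ℝ) + 1) / M) * 1 := by gcongr
        _ ≤ _ := by linarith
    · obtain ⟨m, hm⟩ : ∃ m, j + d + 1 = (i + 1) + m := ⟨j + d - i, by omega⟩
      have h3 := two_pow_le (n := i + 1) (m := m) (by omega) (by omega)
      have hMm : M = ((i + 1 : ℕ) : ℝ) + m := by rw [← e, hm]; push_cast; ring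
      rw [← hMm] at h3
      push_cast at h3
      have hz : 1 / 2 ≤ ((i : ℝ) + 1) / M := by
        rw [div_le_div_iff₀ two_pos hM']
        have : ((j + d + 1 : ℕ) : ℝ) ≤ ((2 * (i + 1) : ℕ) : ℝ) := by exact_mod_cast (by omega)
        rw [e] at this
        push_cast at this ⊢
        linarith
      have h4 : (((i : ℝ) + 1) / M) ^ (i + 1) * 2 ^ m ≤ 1 := by
        rw [div_pow, div_mul_eq_mul_div, div_le_one (by positivity)]; linarith
      have h5 : (2 : ℝ) ^ d * (7 / 8) ^ d ≤ 2 ^ m := by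
        calc (2 : ℝ) ^ d * (7 / 8) ^ d ≤ 2 ^ d * 1 := by
              gcongr; exact pow_le_one₀ (by norm_num) (by norm_num)
          _ ≤ 2 ^ m := by
              rw [mul_one]; exact pow_le_pow_right₀ (by norm_num) (by omega)
      have h6 : 0 ≤ (((i : ℝ) + 1) / M) ^ i * 2 ^ m := by positivity
      have h7 : (((i : ℝ) + 1) / M) ^ i * 2 ^ m ≤ 2 := by
        rw [pow_succ] at h4; nlinarith
      calc (((i : ℝ) + 1) / M) ^ i * (2 ^ d * (7 / 8) ^ d) ≤ (((i : ℝ) + 1) / M) ^ i * 2 ^ m := by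
            gcongr
        _ ≤ _ := by linarith
  have hx : (0 : ℝ) ≤ (11 / 14) ^ i := by positivity
  calc (c i * (1 / (7 * M)) ^ i) * (c j * (1 / (7 * M)) ^ j)
      ≤ (4 / 11 * ((11 / 14) ^ i * (((i : ℝ) + 1) / M) ^ i)) * (2 ^ d * (7 / 8) ^ d * T) :=
        mul_le_mul h2 h1 (mul_nonneg (c_pos _).le (by positivity)) (by positivity)
    _ = 4 / 11 * (11 / 14) ^ i * T * ((((i : ℝ) + 1) / M) ^ i * (2 ^ d * (7 / 8) ^ d)) := by ring
    _ ≤ 4 / 11 * (11 / 14) ^ i * T * (4 * (((i : ℝ) + 1) / M)) := by gcongr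
    _ = 16 / 11 / M * (((i : ℝ) + 1) * (11 / 14) ^ i) * T := by ring
    _ ≤ _ := by gcongr; norm_num

/-- the sum over the high pairs -/
lemma high_le (N : ℕ) :
    ∑ i ∈ range (N + 1), ∑ j ∈ Ico (N + 1 - i) (N + 1),
      (c i * (1 / (7 * ((N : ℝ) + 1))) ^ i) * (c j * (1 / (7 * ((N : ℝ) + 1))) ^ j) ≤
      728 / ((N : ℝ) + 1) * (c N * (1 / (7 * ((N : ℝ) + 1))) ^ N) := by
  set T := c N * (1 / (7 * ((N : ℝ) + 1))) ^ N with hT
  have hT0 : 0 ≤ T := mul_nonneg (c_pos _).le (by positivity)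
  set φ : ℕ → ℝ := fun i => ((i : ℝ) + 1) * (11 / 14) ^ i with hφ
  have hφ0 : ∀ i, 0 ≤ φ i := fun i => by simp only [hφ]; positivity
  have h1 : ∑ i ∈ range (N + 1), ∑ _j ∈ Ico (N + 1 - i) (N + 1), φ i ≤ 182 := by
    refine le_trans (sum_le_sum fun i hi => ?_) (geo2 (N + 1))
    have := mem_range.1 hi
    rw [sum_const, Nat.card_Ico, show N + 1 - (N + 1 - i) = i by omega, nsmul_eq_mul]
    simp only [hφ]
    have : (0 : ℝ) ≤ ((i : ℝ) + 1) * (11 / 14) ^ i := by positivity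
    nlinarith
  have h2 : ∑ i ∈ range (N + 1), ∑ j ∈ Ico (N + 1 - i) (N + 1), φ j =
      ∑ j ∈ range (N + 1), ∑ _i ∈ Ico (N + 1 - j) (N + 1), φ j := by
    refine sum_comm' fun i j => ?_
    simp only [mem_range, mem_Ico]; omega
  calc _ ≤ ∑ i ∈ range (N + 1), ∑ j ∈ Ico (N + 1 - i) (N + 1),
        2 / ((N : ℝ) + 1) * (φ i + φ j) * T := by
        refine sum_le_sum fun i hi => sum_le_sum fun j hj => ?_
        have hi' := mem_range.1 hi
        have hj' := mem_Ico.1 hj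
        rcases le_total i j with hij | hij
        · refine (pair_le hij (by omega) (by omega)).trans ?_
          have := hφ0 j
          gcongr
          simp only [hφ]; linarith
        · rw [mul_comm]
          refine (pair_le hij (by omega) (by omega)).trans ?_
          have := hφ0 i
          gcongr
          simp only [hφ]; linarith
    _ = 2 / ((N : ℝ) + 1) * (∑ i ∈ range (N + 1), ∑ _j ∈ Ico (N + 1 - i) (N + 1), φ i +
        ∑ i ∈ range (N + 1), ∑ j ∈ Ico (N + 1 - i) (N + 1), φ j) * T := by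
        simp only [← sum_add_distrib, mul_sum, sum_mul]
    _ ≤ 2 / ((N : ℝ) + 1) * (182 + 182) * T := by
        rw [h2]; gcongr
    _ = _ := by ring

end Crest.Agent.N250.HJ
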