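import Crest.Agent.N250.HJ.Bd

/-! # Row 250, end action: the residual of the truncated inner solution -/

namespace Crest.Agent.N250.HJ

open Finset

/-- residual of the inner equation -/
noncomputable def DD (N : ℕ) (w : ℂ) : ℂ := (1 - eN N w) ^ 2 + 4 * w * cN N w ^ 2 - 1

lemma kap_pos (N : ℕ) : 0 < kap N := by unfold kap; have := cc_pos N; positivity

lemma kap_le (N : ℕ) : kap N ≤ a (N + 1) := two_cc_le N

lemma kap_small (N : ℕ) :
    kap N * (1 / (7 * ((N : ℝ) + 1))) ^ (N + 1) ≤ (11 / 14) ^ N := by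
  have h := a_term (M := (N : ℝ) + 1) (ρ := 1 / (7 * ((N : ℝ) + 1))) (by positivity)
    (by positivity) le_rfl (k := N) le_rfl
  have h2 : 2 * (1 / (7 * ((N : ℝ) + 1))) ≤ 1 := by
    rw [mul_one_div, div_le_one (by positivity)]
    have : (0 : ℝ) ≤ N := by positivity
    linarith
  calc _ ≤ a (N + 1) * (1 / (7 * ((N : ℝ) + 1))) ^ (N + 1) := by gcongr; exact kap_le N
    _ ≤ _ := h.trans (mul_le_of_le_one_left (by positivity) h2)

lemma sq_split (f : ℕ → ℝ) (M : ℕ) (w : ℂ) :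
    (∑ k ∈ range M, (f k : ℂ) * w ^ k) ^ 2 =
      ∑ n ∈ range M, ((∑ k ∈ range (n + 1), f k * f (n - k) : ℝ) : ℂ) * w ^ n +
      ∑ i ∈ range M, ∑ j ∈ Ico (M - i) M, ((f i * f j : ℝ) : ℂ) * w ^ (i + j) := by
  have h1 : ∑ n ∈ range M, ((∑ k ∈ range (n + 1), f k * f (n - k) : ℝ) : ℂ) * w ^ n =
      ∑ n ∈ range M, ∑ k ∈ range (n + 1), ((f k * f (n - k) : ℝ) : ℂ) * w ^ (k + (n - k)) := by
    refine sum_congr rfl fun n _ => ?_
    rw [Complex.ofReal_sum, sum_mul]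
    refine sum_congr rfl fun k hk => ?_
    have := mem_range.1 hk
    rw [show k + (n - k) = n by omega]
  rw [h1, sum_range_diag_flip M (fun i j => ((f i * f j : ℝ) : ℂ) * w ^ (i + j)),
    ← sum_add_distrib, sq, sum_mul_sum]
  refine sum_congr rfl fun i _ => ?_
  rw [sum_range_add_sum_Ico _ (Nat.sub_le M i)]
  refine sum_congr rfl fun j _ => ?_
  push_cast; ring

lemma aa_succ (n : ℕ) : ∑ k ∈ range (n + 1 + 1), a k * a (n + 1 - k) = -4 * cc n := by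
  rw [sum_range_succ, sum_range_succ']
  simp only [Nat.sub_self, a_zero, Nat.sub_zero, Nat.add_sub_add_right]
  have := a_succ n
  linarith

lemma DD_eq (N : ℕ) (w : ℂ) : DD N w = 2 * kap N * w ^ (N + 1) +
    (∑ i ∈ range (N + 1), ∑ j ∈ Ico (N + 1 - i) (N + 1), ((a i * a j : ℝ) : ℂ) * w ^ (i + j) +
    4 * w * ∑ i ∈ range (N + 1), ∑ j ∈ Ico (N + 1 - i) (N + 1),
      ((c i * c j : ℝ) : ℂ) * w ^ (i + j)) := by
  have h1 : (1 - eN N w) ^ 2 = (∑ k ∈ range (N + 1), (a k : ℂ) * w ^ k) ^ 2 := by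
    rw [sum_range_succ']; unfold eN; simp only [a_zero]; push_cast; ring
  unfold DD cN
  rw [h1, sq_split a, sq_split c, sum_range_succ' _ N]
  simp only [aa_succ]
  have h2 : ∑ n ∈ range (N + 1), ((∑ k ∈ range (n + 1), c k * c (n - k) : ℝ) : ℂ) * w ^ n =
      ∑ n ∈ range N, (cc n : ℂ) * w ^ n + cc N * w ^ N := by
    rw [sum_range_succ]; rfl
  have h3 : ∑ k ∈ range N, ((-4 * cc k : ℝ) : ℂ) * w ^ (k + 1) =
      -(4 * w * ∑ n ∈ range N, (cc n : ℂ) * w ^ n) := by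
    rw [mul_sum, ← sum_neg_distrib]
    refine sum_congr rfl fun k _ => ?_
    push_cast; ring
  rw [h2, h3]
  simp only [kap, zero_add, range_one, sum_singleton, Nat.sub_self, a_zero, pow_zero]
  push_cast; ring

lemma norm_high_le {N : ℕ} {w : ℂ} (h : ‖w‖ ≤ 1 / (7 * ((N : ℝ) + 1))) (g : ℕ → ℕ → ℝ) (L : ℝ)
    (hL : 0 ≤ L) (hg : ∀ i j, i ≤ N → j ≤ N → N + 1 ≤ i + j → |g i j| ≤ L * (c i * c j)) :
    ‖∑ i ∈ range (N + 1), ∑ j ∈ Ico (N + 1 - i) (N + 1), ((g i j : ℝ) : ℂ) * w ^ (i + j)‖ *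
        (1 / (7 * ((N : ℝ) + 1))) ≤ L * (728 / ((N : ℝ) + 1) * c N * ‖w‖ ^ (N + 1)) := by
  set ρ0 : ℝ := 1 / (7 * ((N : ℝ) + 1)) with hρ0
  have hρ : 0 < ρ0 := by positivity
  have h1 : ‖∑ i ∈ range (N + 1), ∑ j ∈ Ico (N + 1 - i) (N + 1),
      ((g i j : ℝ) : ℂ) * w ^ (i + j)‖ * ρ0 ^ (N + 1) ≤
      L * ‖w‖ ^ (N + 1) * ∑ i ∈ range (N + 1), ∑ j ∈ Ico (N + 1 - i) (N + 1),
        (c i * ρ0 ^ i) * (c j * ρ0 ^ j) := by
    rw [mul_sum]
    refine le_trans (mul_le_mul_of_nonneg_right (norm_sum_le _ _) (by positivity)) ?_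
    rw [sum_mul]
    refine sum_le_sum fun i hi => ?_
    rw [mul_sum]
    refine le_trans (mul_le_mul_of_nonneg_right (norm_sum_le _ _) (by positivity)) ?_
    rw [sum_mul]
    refine sum_le_sum fun j hj => ?_
    have hi' := mem_range.1 hi
    have hj' := mem_Ico.1 hj
    obtain ⟨d, hd⟩ : ∃ d, i + j = N + 1 + d := ⟨i + j - (N + 1), by omega⟩
    have h2 := hg i j (by omega) (by omega) (by omega)
    have h3 : ‖w‖ ^ d ≤ ρ0 ^ d := pow_le_pow_left₀ (norm_nonneg _) h d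
    have h4 : ρ0 ^ i * ρ0 ^ j = ρ0 ^ (N + 1) * ρ0 ^ d := by rw [← pow_add, ← pow_add, hd]
    have h5 := c_pos i
    have h6 := c_pos j
    rw [norm_mul, norm_pow, Complex.norm_real, Real.norm_eq_abs, hd, pow_add]
    calc |g i j| * (‖w‖ ^ (N + 1) * ‖w‖ ^ d) * ρ0 ^ (N + 1)
        ≤ (L * (c i * c j)) * (‖w‖ ^ (N + 1) * ρ0 ^ d) * ρ0 ^ (N + 1) := by gcongr
      _ = L * ‖w‖ ^ (N + 1) * (c i * c j * (ρ0 ^ (N + 1) * ρ0 ^ d)) := by ring
      _ = _ := by rw [← h4]; ring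
  have h2 := high_le N
  rw [← hρ0] at h2
  have h3 := h1.trans (mul_le_mul_of_nonneg_left h2 (by positivity))
  have h4 : 0 < ρ0 ^ N := by positivity
  refine le_of_mul_le_mul_right ?_ h4
  calc _ = ‖∑ i ∈ range (N + 1), ∑ j ∈ Ico (N + 1 - i) (N + 1),
      ((g i j : ℝ) : ℂ) * w ^ (i + j)‖ * ρ0 ^ (N + 1) := by ring
    _ ≤ _ := h3
    _ = _ := by ring

/-- the residual is its leading term up to a relative error `O(1/N)` -/
theorem DD_lead {N : ℕ} (hN : 1 ≤ N) {w : ℂ} (h : ‖w‖ ≤ 1 / (7 * ((N : ℝ) + 1))) :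
    ‖DD N w - 2 * kap N * w ^ (N + 1)‖ ≤ 3276 / ((N : ℝ) + 1) * kap N * ‖w‖ ^ (N + 1) := by
  rw [DD_eq, add_sub_cancel_left]
  set ρ0 : ℝ := 1 / (7 * ((N : ℝ) + 1)) with hρ0
  have hρ : 0 < ρ0 := by positivity
  have hN' : (1 : ℝ) ≤ N := by exact_mod_cast hN
  have h1 := norm_high_le h (fun i j => a i * a j) (14 * ρ0) (by positivity) (by
    intro i j hi hj hij
    have hai := a_pos i (by omega)
    have haj := a_pos j (by omega)
    have hi1 : (1 : ℝ) ≤ i := by exact_mod_cast (by omega : 1 ≤ i)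
    have hj1 : (1 : ℝ) ≤ j := by exact_mod_cast (by omega : 1 ≤ j)
    have hij' : (N : ℝ) + 1 ≤ i + j := by exact_mod_cast hij
    rw [abs_of_pos (mul_pos hai haj)]
    have e : 14 * ρ0 * (c i * c j) =
        (2 * ((2 * (i : ℝ) - 1) * (2 * j - 1)) / ((N : ℝ) + 1)) * (a i * a j) := by
      simp only [c, hρ0]; field_simp; ring
    rw [e]
    refine le_mul_of_one_le_left (mul_pos hai haj).le ?_
    rw [le_div_iff₀ (by positivity)]
    nlinarith [mul_nonneg (sub_nonneg.2 hi1) (sub_nonneg.2 hj1)])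
  have h2 := norm_high_le h (fun i j => c i * c j) 1 zero_le_one (by
    intro i j _ _ _
    rw [abs_of_pos (mul_pos (c_pos i) (c_pos j)), one_mul])
  rw [← hρ0] at h1 h2
  set A := ∑ i ∈ range (N + 1), ∑ j ∈ Ico (N + 1 - i) (N + 1), ((a i * a j : ℝ) : ℂ) * w ^ (i + j)
  set B := ∑ i ∈ range (N + 1), ∑ j ∈ Ico (N + 1 - i) (N + 1), ((c i * c j : ℝ) : ℂ) * w ^ (i + j)
  set T := 728 / ((N : ℝ) + 1) * c N * ‖w‖ ^ (N + 1) with hT
  have h3 : ‖A‖ ≤ 14 * T := by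
    refine le_of_mul_le_mul_right ?_ hρ
    linarith
  have h4 : ‖4 * w * B‖ ≤ 4 * T := by
    rw [norm_mul, norm_mul, Complex.norm_ofNat]
    have : ‖w‖ * ‖B‖ ≤ ρ0 * ‖B‖ := by gcongr
    linarith
  have h5 : 4 * c N ≤ kap N := by have := two_c_le_cc hN; unfold kap; linarith
  have h6 : 4 * T ≤ 728 / ((N : ℝ) + 1) * kap N * ‖w‖ ^ (N + 1) := by
    calc 4 * T = 728 / ((N : ℝ) + 1) * (4 * c N) * ‖w‖ ^ (N + 1) := by rw [hT]; ring
      _ ≤ _ := by gcongr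
  calc ‖A + 4 * w * B‖ ≤ 14 * T + 4 * T := (norm_add_le _ _).trans (add_le_add h3 h4)
    _ = 9 / 2 * (4 * T) := by ring
    _ ≤ 9 / 2 * (728 / ((N : ℝ) + 1) * kap N * ‖w‖ ^ (N + 1)) := by gcongr
    _ = _ := by ring

end Crest.Agent.N250.HJ
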