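import Mathlib

/-! # Row 250, end action: the coefficients of the formal inner Hamilton–Jacobi solution

`A(w) = Σ a_k w^k`, `C = 2wA' - A = Σ c_k w^k`, `A² + 4 w C² = 1` formally.  The truncation at
order `N` has residual `κ_N w^(N+1) (1 + O(1/N))` on `|w| ≤ 1/(7(N+1))`. -/

namespace Crest.Agent.N250.HJ

open Finset

/-- coefficients of the formal solution -/
noncomputable def a : ℕ → ℝ
  | 0 => -1
  | k + 1 => (∑ i : Fin k, a (i + 1) * a (k - i) +
      4 * ∑ i : Fin (k + 1), ((2 * ((i : ℕ) : ℝ) - 1) * a i) *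
        ((2 * ((k - i : ℕ) : ℝ) - 1) * a (k - i))) / 2
decreasing_by all_goals (have := i.isLt; omega)

/-- coefficients of `2wA' - A` -/
noncomputable def c (k : ℕ) : ℝ := (2 * (k : ℝ) - 1) * a k

lemma a_zero : a 0 = -1 := by rw [a]

lemma c_zero : c 0 = 1 := by simp [c, a_zero]

/-- `[C²]_k` -/
noncomputable def cc (k : ℕ) : ℝ := ∑ i ∈ range (k + 1), c i * c (k - i)

lemma a_succ (k : ℕ) :
    2 * a (k + 1) = ∑ i ∈ range k, a (i + 1) * a (k - i) + 4 * cc k := by
  rw [a, Fin.sum_univ_eq_sum_range (fun i => a (i + 1) * a (k - i)) k,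
    Fin.sum_univ_eq_sum_range (fun i => ((2 * (i : ℝ) - 1) * a i) *
        ((2 * ((k - i : ℕ) : ℝ) - 1) * a (k - i))) (k + 1)]
  simp only [cc, c]; ring

lemma c_pos_of {k : ℕ} (h : 1 ≤ k → 0 < a k) : 0 < c k := by
  rcases Nat.eq_zero_or_pos k with rfl | hk
  · rw [c_zero]; exact one_pos
  · have : (1 : ℝ) ≤ k := by exact_mod_cast hk
    exact mul_pos (by linarith) (h hk)

lemma a_pos : ∀ k, 1 ≤ k → 0 < a k := by
  intro k
  induction k using Nat.strong_induction_on with
  | _ k ih =>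
    intro hk
    obtain ⟨k, rfl⟩ : ∃ j, k = j + 1 := ⟨k - 1, by omega⟩
    have h1 : 0 ≤ ∑ i ∈ range k, a (i + 1) * a (k - i) := by
      refine sum_nonneg fun i hi => ?_
      have := mem_range.1 hi
      exact (mul_pos (ih _ (by omega) (by omega)) (ih _ (by omega) (by omega))).le
    have h2 : 0 < cc k := by
      refine sum_pos (fun i hi => ?_) ⟨0, by simp⟩
      have := mem_range.1 hi
      exact mul_pos (c_pos_of (ih _ (by omega))) (c_pos_of (ih _ (by omega)))
    have := a_succ k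
    linarith

lemma c_pos (k : ℕ) : 0 < c k := c_pos_of (a_pos k)

lemma cc_zero : cc 0 = 1 := by simp [cc, c_zero]

lemma cc_succ (k : ℕ) :
    cc (k + 1) = 2 * c (k + 1) + ∑ i ∈ range k, c (i + 1) * c (k - i) := by
  unfold cc
  rw [sum_range_succ, sum_range_succ']
  simp only [Nat.sub_self, c_zero, Nat.sub_zero, Nat.add_sub_add_right]
  ring

lemma two_c_le_cc {k : ℕ} (hk : 1 ≤ k) : 2 * c k ≤ cc k := by
  obtain ⟨k, rfl⟩ : ∃ j, k = j + 1 := ⟨k - 1, by omega⟩
  rw [cc_succ]
  have : 0 ≤ ∑ i ∈ range k, c (i + 1) * c (k - i) :=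
    sum_nonneg fun i _ => (mul_pos (c_pos _) (c_pos _)).le
  linarith

lemma cc_pos (k : ℕ) : 0 < cc k :=
  sum_pos (fun _ _ => mul_pos (c_pos _) (c_pos _)) ⟨0, by simp⟩

lemma two_cc_le (k : ℕ) : 2 * cc k ≤ a (k + 1) := by
  have h1 : 0 ≤ ∑ i ∈ range k, a (i + 1) * a (k - i) := by
    refine sum_nonneg fun i hi => ?_
    have := mem_range.1 hi
    exact (mul_pos (a_pos _ (by omega)) (a_pos _ (by omega))).le
  have := a_succ k
  linarith

lemma c_ratio {k : ℕ} (hk : 1 ≤ k) : (8 * k + 4) * c k ≤ c (k + 1) := by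
  have h1 := two_c_le_cc hk
  have h2 := two_cc_le k
  have h3 : c (k + 1) = (2 * k + 1) * a (k + 1) := by simp only [c]; push_cast; ring
  have h4 : (0 : ℝ) ≤ 2 * k + 1 := by positivity
  rw [h3]
  nlinarith

lemma fact_mul_le (i j : ℕ) : (i.factorial : ℝ) * j.factorial ≤ (i + j).factorial := by
  exact_mod_cast Nat.le_of_dvd (Nat.factorial_pos _)
    (Nat.factorial_mul_factorial_dvd_factorial_add i j)

lemma fact_mul_le' (i j : ℕ) :
    ((i + 1).factorial : ℝ) * (j + 1).factorial ≤ (i + j + 1).factorial := by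
  induction j with
  | zero => simp
  | succ j ih =>
    rw [Nat.factorial_succ (j + 1), show i + (j + 1) + 1 = (i + j + 1) + 1 by ring,
      Nat.factorial_succ (i + j + 1)]
    push_cast
    have h0 : (0 : ℝ) ≤ ((i + 1).factorial : ℝ) * (j + 1).factorial := by positivity
    have h1 : (0 : ℝ) ≤ i := by positivity
    have h2 : (0 : ℝ) ≤ j := by positivity
    nlinarith

lemma c_le_of {k : ℕ} (h : a (k + 1) ≤ 2 * 11 ^ k * k.factorial) :
    c (k + 1) ≤ 4 * 11 ^ k * (k + 1).factorial := by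
  have h3 : c (k + 1) = (2 * k + 1) * a (k + 1) := by simp only [c]; push_cast; ring
  rw [h3, Nat.factorial_succ]
  push_cast
  have h4 : (0 : ℝ) ≤ 2 * k + 1 := by positivity
  have h5 : (0 : ℝ) ≤ 11 ^ k * (k.factorial : ℝ) := by positivity
  calc (2 * k + 1) * a (k + 1) ≤ (2 * k + 1) * (2 * 11 ^ k * k.factorial) :=
        mul_le_mul_of_nonneg_left h h4
    _ ≤ _ := by nlinarith

lemma a_le : ∀ k, a (k + 1) ≤ 2 * 11 ^ k * k.factorial := by
  intro k
  induction k using Nat.strong_induction_on with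
  | _ k ih =>
    rcases Nat.eq_zero_or_pos k with rfl | hk
    · have := a_succ 0
      simp [cc_zero] at this ⊢
      linarith
    obtain ⟨k, rfl⟩ : ∃ j, k = j + 1 := ⟨k - 1, by omega⟩
    have h1 : ∑ i ∈ range (k + 1), a (i + 1) * a (k + 1 - i) ≤
        ∑ _i ∈ range (k + 1), (4 * 11 ^ k * k.factorial : ℝ) := by
      refine sum_le_sum fun i hi => ?_
      have hi' := mem_range.1 hi
      obtain ⟨j, rfl⟩ : ∃ j, k = i + j := ⟨k - i, by omega⟩
      rw [show i + j + 1 - i = j + 1 by omega]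
      have e1 := ih i (by omega)
      have e2 := ih j (by omega)
      have e3 := fact_mul_le i j
      calc a (i + 1) * a (j + 1) ≤ (2 * 11 ^ i * i.factorial) * (2 * 11 ^ j * j.factorial) :=
            mul_le_mul e1 e2 (a_pos _ (by omega)).le (by positivity)
        _ = 4 * 11 ^ (i + j) * ((i.factorial : ℝ) * j.factorial) := by rw [pow_add]; ring
        _ ≤ _ := by gcongr
    have h2 : 11 * ∑ i ∈ range k, c (i + 1) * c (k - i) ≤
        ∑ _i ∈ range k, (16 * 11 ^ k * k.factorial : ℝ) := by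
      rw [mul_sum]
      refine sum_le_sum fun i hi => ?_
      have hi' := mem_range.1 hi
      obtain ⟨j, rfl⟩ : ∃ j, k = i + j + 1 := ⟨k - i - 1, by omega⟩
      rw [show i + j + 1 - i = j + 1 by omega]
      have e1 := c_le_of (ih i (by omega))
      have e2 := c_le_of (ih j (by omega))
      have e3 := fact_mul_le' i j
      calc 11 * (c (i + 1) * c (j + 1)) ≤ 11 * ((4 * 11 ^ i * (i + 1).factorial) *
            (4 * 11 ^ j * (j + 1).factorial)) := by
            gcongr
            exact (c_pos _).le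
        _ = 16 * 11 ^ (i + j + 1) * (((i + 1).factorial : ℝ) * (j + 1).factorial) := by
            rw [pow_succ, pow_add]; ring
        _ ≤ _ := by gcongr
    have h3 := c_le_of (ih k (by omega))
    have h4 := a_succ (k + 1)
    rw [cc_succ] at h4
    simp only [sum_const, card_range, nsmul_eq_mul] at h1 h2
    rw [Nat.factorial_succ] at h3 ⊢
    push_cast at h1 h3 ⊢
    have h5 : (0 : ℝ) ≤ 11 ^ k * (k.factorial : ℝ) := by positivity
    have h6 : (0 : ℝ) ≤ k := by positivity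
    rw [pow_succ]
    nlinarith

lemma c_le (k : ℕ) : c (k + 1) ≤ 4 * 11 ^ k * (k + 1).factorial := c_le_of (a_le k)

lemma a_le_c {k : ℕ} (hk : 1 ≤ k) : a k ≤ c k := by
  have : (1 : ℝ) ≤ k := by exact_mod_cast hk
  have h := a_pos k hk
  unfold c; nlinarith

lemma two_pow_fact_le (i : ℕ) : (2 : ℝ) ^ i * i.factorial ≤ ((i : ℝ) + 1) ^ i := by
  induction i with
  | zero => simp
  | succ i ih =>
    rw [Nat.factorial_succ]
    push_cast
    have h0 : (0 : ℝ) < (i : ℝ) + 1 := by positivity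
    have h1 : 1 + ((i + 1 : ℕ) : ℝ) * (1 / ((i : ℝ) + 1)) ≤ (1 + 1 / ((i : ℝ) + 1)) ^ (i + 1) :=
      one_add_mul_le_pow (by have : 0 ≤ 1 / ((i : ℝ) + 1) := by positivity
                             linarith) _
    have h2 : ((i + 1 : ℕ) : ℝ) * (1 / ((i : ℝ) + 1)) = 1 := by push_cast; field_simp
    have h3 : ((i : ℝ) + 1 + 1) ^ (i + 1) =
        ((i : ℝ) + 1) ^ (i + 1) * (1 + 1 / ((i : ℝ) + 1)) ^ (i + 1) := by
      rw [← mul_pow]; congr 1; field_simp
    rw [h3]
    rw [h2] at h1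
    calc (2 : ℝ) ^ (i + 1) * (((i : ℝ) + 1) * i.factorial)
        = (((i : ℝ) + 1) * (2 ^ i * i.factorial)) * 2 := by ring
      _ ≤ (((i : ℝ) + 1) * ((i : ℝ) + 1) ^ i) * (1 + 1 / ((i : ℝ) + 1)) ^ (i + 1) := by
          gcongr; linarith
      _ = _ := by ring

end Crest.Agent.N250.HJ
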